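import Vale.Agent.P207L3.Ent
import Vale.Agent.P207L3.Sph
import Vale.Agent.P207I27.L3
import Vale.Agent.P207I27.Br
import Vale.Agent.P207Z.Fin.AltPf
import Vale.Agent.P207Z.Abs

/-!
# P207: Katok's entropy rigidity conjecture, with the Levi-Civita connection, its curvature and
geodesics, and the rotation-invariant measures on the unit spheres
-/

open scoped Manifold ContDiff
open MeasureTheory Vale.Agent.P207L Vale.Agent.P108L
open Vale.Agent.P255 (RMetric)
open Vale.Agent.P207F (EV stdB UT IsRiemVol)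

theorem Vale.Agent.Results.P207.AAIntrinsic.result (n : ℕ) (hn : 2 ≤ n) (M : Type)
    [TopologicalSpace M] [CompactSpace M] [T2Space M] [ConnectedSpace M] [ChartedSpace (EV n) M]
    [IsManifold 𝓘(ℝ, EV n) ∞ M] [MeasurableSpace M] [BorelSpace M] (g : RMetric (EV n) M) :
    Vale.Agent.P207S.Katok (stdB n) g := by
  refine P207S.katok_of (stdB n) g ?_
  obtain ⟨hW, hK⟩ := P207Z.Fin.final_of_alt
    (@P207Z.Fin.altStmt_of fun P Fl Tm hL => P207Z.isS_Es P Fl Tm hL) n hn M
  obtain ⟨h1, h2, h3⟩ := hW g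
  choose σ hσ hs using exists_inv (g := g) hn
  have hm := (h3 _).2 rfl
  have hf := (h1 _).2 rfl
  have hp : ∀ t, MeasurePreserving (P207F.geoFlow g t) (P207F.liou (stdB n) g)
      (P207F.liou (stdB n) g) := fun t => P207.IsLiouville.measurePreserving (by omega)
    hf ((h2 _).2 rfl) hm t
  have := hm.1
  have : CompactSpace (UT g) := P207.compactSpace_UT g
  refine ⟨C.exists_lc g, fun D hD => ⟨fun D' hD' => C.lc_unique hD hD', C.sound hD,
    ⟨P207F.geoFlow g, P207.IsGeoFlow.continuous hf, P207.IsGeoFlow.add hf,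
      P207.IsGeoFlow.zero hf⟩, P207F.vol (stdB n) g, σ, P207F.liou (stdB n) g,
    fun φ => (C.flow_iff hD φ).trans (h1 φ), h2,
    fun x s => ⟨fun h => h.unique hn (hσ x), fun h => h ▸ hσ x⟩, fun m => Iff.trans ?_ (h3 m), hp,
    fun d P hP => rate (hp 1) hP, fun ι U hU => hU.rate _, fun hN => ?_⟩⟩
  · refine and_congr_right fun _ => forall₂_congr fun a ha => ?_
    rw [funext fun x => hs x a ha, inv_mul_eq_div]
  · rw [hKS_eq (hp 1), hTop_eq, C.par_iff hD]
    exact hK g ((C.neg_iff hD).1 hN)
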